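import Vale.Agent.P167.H436.ND.Defs

/-!
# P167, general `q`, block Q-ND: the change of the base in a free polygon

`s_base : 0 < θ → θ < π / 2 → S_base θ`.
-/

namespace Vale.Agent.P167.H174.ND

open Finset Relation Vale.Agent.P167 Vale.Agent.P167.BR
open Vale.Agent.P167.E6 (IsPolygon Encloses dir face)
open Vale.Agent.P167.E2 (ro ro_spec ro_unique)
open Vale.Agent.P167.H718 (IsXY IsCl Cl isCl_strand)
open Vale.Agent.P167.QX (lo hi exists_xy lo_xy hi_xy wB XB)
open Vale.Agent.P167.QB (gB XG Ard sgm ep dlt sum_alt ard_lp ard_xy sg_xy sep_ard sgm_cases ep_cases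
  wB_hx gB_cos)
open Vale.Agent.P167.H436.ND

variable {D : Finset (ℤ × ℤ)} {ω : Cfg} {n : ℕ} {q q' : ZMod n → ℤ × ℤ} {A : Finset Ed} {x y : ℕ}
  {θ : ℝ} {l : ℕ} {F : ℤ × ℤ → ℝ}

theorem zprod {ι : Type*} {a : ℝ} (ha : a ≠ 0) (s : Finset ι) (f : ι → ℤ) :
    ∏ i ∈ s, a ^ f i = a ^ ∑ i ∈ s, f i := by
  classical
  induction s using Finset.induction_on with
  | empty => simp
  | insert i s hi ih => rw [prod_insert hi, sum_insert hi, zpow_add₀ ha, ih]

/-! ### the rotated polygon -/

theorem poly_rot (hq : IsPolygon q) (h : ∀ i : ZMod n, q' i = q (i + l)) : IsPolygon q' := by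
  refine ⟨hq.1, fun i j hij => ?_, fun i => ?_⟩
  · rw [h, h] at hij
    exact add_right_cancel (hq.2.1 hij)
  · obtain ⟨r, hr⟩ := hq.2.2 (i + l)
    refine ⟨r, ?_⟩
    rw [h, h, ← hr]
    congr 1
    ring

theorem encl_rot (hD : Encloses q D) (h : ∀ i : ZMod n, q' i = q (i + l)) : Encloses q' D := by
  intro v r
  rw [← hD v r]
  constructor
  · rintro ⟨i, h1, h2⟩
    refine ⟨i + l, by rw [← h, h1], ?_⟩
    rw [← h2, h]
    congr 1
    ring
  · rintro ⟨i, h1, h2⟩
    refine ⟨i - l, by rw [h, sub_add_cancel, h1], ?_⟩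
    rw [h, ← h2]
    congr 1
    ring

theorem be_rot (hq : IsPolygon q) (h : ∀ i : ZMod n, q' i = q (i + l)) (i : ZMod n) :
    be q' i = be q (i + l) := by
  have hq' := poly_rot hq h
  have h1 : ro q' i = ro q (i + l) := by
    refine ro_unique hq ?_
    rw [← h, ← ro_spec hq' i, h]
    congr 1
    ring
  unfold be
  rw [h1, h]

/-- The index with respect to the new base. -/
def shi (n l x : ℕ) : ℕ := if l ≤ x then x - l else x + n - l

theorem shi_lt (hl : l < n) (hx : x < n) : shi n l x < n := by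
  unfold shi
  split_ifs <;> omega

theorem shi_cast (hl : l < n) (x : ℕ) : ((shi n l x : ℕ) : ZMod n) + l = x := by
  unfold shi
  split_ifs with h
  · rw [← Nat.cast_add, Nat.sub_add_cancel h]
  · rw [← Nat.cast_add, Nat.sub_add_cancel (by omega), Nat.cast_add, ZMod.natCast_self, add_zero]

theorem xy_rot (hq : IsPolygon q) (h : ∀ i : ZMod n, q' i = q (i + l)) (hl : l < n)
    (hxy : IsXY q A x y) : IsXY q' A (shi n l x) (shi n l y) := by
  obtain ⟨h1, h2, h3, h4, h5, h6⟩ := hxy
  refine ⟨shi_lt hl h1, shi_lt hl h2, ?_, ?_, ?_, ?_⟩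
  · rw [be_rot hq h, shi_cast hl]; exact h3
  · rw [be_rot hq h, shi_cast hl]; exact h4
  · rw [h, shi_cast hl]; exact h5
  · rw [h, shi_cast hl]; exact h6

/-! ### masses -/

theorem mass_add' {p : ℤ × ℤ} (f g : ℤ × ℤ → ℝ) :
    mass D p (fun z => f z + g z) A = mass D p f A + mass D p g A := by
  classical
  unfold mass
  rw [← sum_add_distrib]
  refine sum_congr rfl fun z _ => ?_
  split_ifs <;> simp

open Classical in
theorem mass_dlt' {p s : ℤ × ℤ} (hs : s ∈ sites D) (t : ℝ) :
    mass D p (dlt s t) A = if Sep D A s p then t else 0 := by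
  unfold mass dlt
  rw [sum_eq_single s]
  · by_cases h : Sep D A s p
    · rw [if_pos h, if_pos rfl, if_pos h]
    · rw [if_neg h, if_neg h]
  · intro z _ hz
    rw [if_neg hz, ite_self]
  · intro h
    exact absurd hs h

section

variable (hq : IsPolygon q) (hD : Encloses q D)
include hq hD

/-- Separation from any site in terms of a potential. -/
theorem sep_iff' {u : ℤ × ℤ → ℤ} (hu : PotD D A u) {z p : ℤ × ℤ} (hz : z ∈ sites D)
    (hp : p ∈ sites D) : Sep D A z p ↔ u z ≠ u p := by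
  constructor
  · rintro ⟨u', hu', h⟩ h'
    have h1 := XDL.pot_unique hq hD hu hu' hz
    have h2 := XDL.pot_unique hq hD hu hu' hp
    omega
  · intro h
    exact ⟨u, hu, h⟩

/-- The mass with respect to another base point. -/
theorem mass_base (hA : A ∈ pcs ω D) {p p' : ℤ × ℤ} (hp : p ∈ sites D) (hp' : p' ∈ sites D)
    (hF : ∀ z, F z ≠ 0 → z ∈ sites D) (hs : ∑ᶠ z, F z = θ) :
    (¬ Sep D A p' p → mass D p' F A = mass D p F A) ∧
      (Sep D A p' p → mass D p' F A = θ - mass D p F A) := by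
  classical
  obtain ⟨u, hu⟩ := exists_pot hq hD hA
  obtain ⟨κ, -, h2⟩ := XDL.pot_two hq hD hA hu
  have hsum : ∑ z ∈ sites D, F z = θ := by
    rw [← hs, finsum_eq_sum_of_support_subset F fun z hz => mem_coe.2 (hF z hz)]
  have hpp := sep_iff' hq hD hu hp' hp
  constructor
  · intro h
    rw [hpp, not_not] at h
    unfold mass
    refine sum_congr rfl fun z hz => ?_
    have h3 := sep_iff' hq hD hu hz hp'
    have h4 := sep_iff' hq hD hu hz hp
    rw [h] at h3
    by_cases h5 : u z ≠ u p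
    · rw [if_pos (h3.2 h5), if_pos (h4.2 h5)]
    · rw [if_neg (fun h6 => h5 (h3.1 h6)), if_neg (fun h6 => h5 (h4.1 h6))]
  · intro h
    rw [hpp] at h
    rw [← hsum]
    unfold mass
    rw [← sum_sub_distrib]
    refine sum_congr rfl fun z hz => ?_
    have h3 := sep_iff' hq hD hu hz hp'
    have h4 := sep_iff' hq hD hu hz hp
    have k1 := h2 z hz
    have k2 := h2 p hp
    have k3 := h2 p' hp'
    by_cases h5 : u z ≠ u p
    · rw [if_pos (h4.2 h5), if_neg (fun h6 => by have := h3.1 h6; omega), sub_self]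
    · rw [if_neg (fun h6 => h5 (h4.1 h6)), if_pos (h3.2 (by omega)), sub_zero]

/-- The weight of a strand in a free polygon. -/
theorem wB_free (hA : A ∈ pcs ω D) (hl : ¬ IsLp D A) (h : IsXY q A x y) (t : ℝ) :
    wB θ (gB θ) q D n A t = if x < y then Real.sin (θ - t) / Real.sin θ
      else Real.sin (2 * θ + t) / Real.sin (2 * θ) := by
  have hcl := isCl_strand (k := n) hq hD hA hl h
  have hne := h.ne
  have h1 := h.1
  have h2 := h.2.1
  unfold wB
  rw [if_neg hl, if_neg (fun h' => by rw [hi_xy hq hD hA h] at h'; omega)]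
  by_cases hxy : x < y
  · rw [if_neg (fun h' => by have := hcl.1 h'; unfold Cl at this; omega), if_pos hxy]
  · rw [if_pos (hcl.2 (by unfold Cl; omega)), if_neg hxy]

end

open Classical in
/-- **One piece.** -/
theorem wB_rot (hq : IsPolygon q) (hD : Encloses q D) (h : ∀ i : ZMod n, q' i = q (i + l))
    (hl : l < n) (h0 : 0 < θ) (h1 : θ < Real.pi / 2) (hA : A ∈ pcs ω D)
    (hF : ∀ z, F z ≠ 0 → z ∈ sites D) (hs : ∑ᶠ z, F z = θ) :
    wB θ (gB θ) q D n A (mass D (q 0) (fun z => F z + dlt (q l) (-θ) z) A) =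
      (2 * Real.cos θ) ^ (if Ard q l A then QB.sg q A else 0 : ℤ) *
      wB θ (gB θ) q' D n A (mass D (q' 0) (fun z => F z + dlt (q 0) (-θ) z) A) := by
  have hq' := poly_rot hq h
  have hD' := encl_rot hD h
  have hx : 0 < Real.sin θ := Real.sin_pos_of_pos_of_lt_pi h0 (by linarith)
  have hc : 0 < Real.cos θ := Real.cos_pos_of_mem_Ioo ⟨by linarith, h1⟩
  have hx2 : 0 < Real.sin (2 * θ) := by rw [Real.sin_two_mul]; positivity
  have e0 : q' 0 = q l := by rw [h, zero_add]
  have hp0 := XDL.base_mem hq hD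
  have hpl : q l ∈ sites D := by rw [← e0]; exact XDL.base_mem hq' hD'
  have hsym : Sep D A (q 0) (q l) ↔ Sep D A (q l) (q 0) := by
    constructor
    · rintro ⟨u, hu, h⟩; exact ⟨u, hu, h.symm⟩
    · rintro ⟨u, hu, h⟩; exact ⟨u, hu, h.symm⟩
  have hard := sep_ard hq hD hA hl.le
  obtain ⟨b1, b2⟩ := mass_base hq hD hA hp0 hpl hF hs
  rw [mass_add', mass_add', mass_dlt' hpl, e0, mass_dlt' hp0]
  by_cases hlp : IsLp D A
  · have ha : ¬ Ard q l A := ard_lp hq hD hA hlp
    have hns : ¬ Sep D A (q l) (q 0) := fun h' => ha (hard.1 h')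
    rw [if_neg ha, if_neg hns, if_neg (fun h' => hns (hsym.1 h')), b1 hns, zpow_zero, one_mul]
    unfold wB
    rw [if_pos hlp, if_pos hlp]
  · obtain ⟨x, y, hxy⟩ := exists_xy hq hD hA hlp
    have hxy' := xy_rot hq h hl hxy
    have hne := hxy.ne
    have hxn := hxy.1
    have hyn := hxy.2.1
    rw [wB_free hq hD hA hlp hxy, wB_free hq' hD' hA hlp hxy']
    have har := ard_xy hq hD hA hxy (w := l)
    have hsg := sg_xy hq hD hA hxy
    by_cases ha : Ard q l A
    · have hse := hard.2 ha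
      rw [if_pos ha, if_pos hse, if_pos (hsym.2 hse), b2 hse, hsg]
      have h3 := har.1 ha
      have hiff : shi n l x < shi n l y ↔ ¬ x < y := by
        unfold shi
        split_ifs <;> omega
      by_cases h4 : x < y
      · rw [if_pos h4, if_neg (fun h' => (hiff.1 h') h4), if_pos h4, zpow_one]
        have e1 : 2 * θ + (θ - mass D (q 0) F A + -θ) = θ - (mass D (q 0) F A + -θ) := by ring
        rw [e1, Real.sin_two_mul]
        field_simp
      · rw [if_neg h4, if_pos (hiff.2 h4), if_neg h4, zpow_neg_one]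
        have e1 : θ - (θ - mass D (q 0) F A + -θ) = 2 * θ + (mass D (q 0) F A + -θ) := by ring
        rw [e1, Real.sin_two_mul]
        field_simp
    · have hns : ¬ Sep D A (q l) (q 0) := fun h' => ha (hard.1 h')
      rw [if_neg ha, if_neg hns, if_neg (fun h' => hns (hsym.1 h')), b1 hns, zpow_zero, one_mul]
      have hiff : shi n l x < shi n l y ↔ x < y := by
        rw [har] at ha
        unfold shi
        split_ifs <;> omega
      by_cases h4 : x < y
      · rw [if_pos h4, if_pos (hiff.2 h4)]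
      · rw [if_neg h4, if_neg (fun h' => h4 (hiff.1 h'))]

/-- **(BASE)** -/
theorem s_base (h0 : 0 < θ) (h1 : θ < Real.pi / 2) : S_base θ := by
  classical
  intro n q q' D l hq hD hl0 hl h
  have hc : 0 < Real.cos θ := Real.cos_pos_of_mem_Ioo ⟨by linarith, h1⟩
  have h2c : (2 * Real.cos θ) ≠ 0 := by positivity
  refine ⟨sgm q l, ?_, ?_, ?_⟩
  · rcases sgm_cases hq l with ⟨h2, -⟩ | ⟨h2, -⟩
    · exact Or.inl h2
    · rw [h2]
      exact Or.inr (ep_cases 0)
  · intro hpar
    rcases sgm_cases hq l with ⟨h2, -⟩ | ⟨h2, h3⟩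
    · exact h2
    · exfalso
      have h4 : ep q l = ep q 0 := by
        unfold ep
        rw [Nat.cast_zero]
        by_cases h5 : Even ((q 0).1 + (q 0).2)
        · rw [if_pos h5, if_pos (by rw [Int.even_iff] at h5 ⊢; omega)]
        · rw [if_neg h5, if_neg (by rw [Int.even_iff] at h5 ⊢; omega)]
      rw [h4] at h3
      rcases ep_cases (q := q) 0 with h5 | h5 <;> rw [h5] at h3 <;> norm_num at h3
  · intro F hF hs ω
    unfold XG QX.XB
    rw [prod_congr rfl fun A hA => wB_rot hq hD h hl h0 h1 hA hF hs, prod_mul_distrib]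
    congr 1
    rw [zprod h2c]
    congr 1
    rw [← sum_alt hq hD ω hl.le, sum_filter]

end Vale.Agent.P167.H174.ND
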