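import Vale.Agent.P167.H174.ND.Base

/-!
# P167, general `q`, block Q-ND: the change of the base, explicit power
-/

namespace Vale.Agent.P167.H174.ND

open Finset Relation Vale.Agent.P167 Vale.Agent.P167.BR
open Vale.Agent.P167.E6 (IsPolygon Encloses)
open Vale.Agent.P167.QB (gB XG Ard sgm ep dlt sum_alt sgm_cases ep_cases)

variable {D : Finset (ℤ × ℤ)} {ω : Cfg} {n : ℕ} {q q' : ZMod n → ℤ × ℤ} {θ : ℝ} {l : ℕ}
  {F : ℤ × ℤ → ℝ}

/-- The sum of the signs is a function of the two parities. -/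
theorem sgm_par (hq : IsPolygon q) (l : ℕ) : sgm q l =
    if ((q 0).1 + (q 0).2) % 2 = ((q l).1 + (q l).2) % 2 then 0
    else if ((q 0).1 + (q 0).2) % 2 = 0 then 1 else -1 := by
  have h0 : ep q 0 = if ((q 0).1 + (q 0).2) % 2 = 0 then 1 else -1 := by
    unfold ep
    rw [Nat.cast_zero]
    by_cases h5 : Even ((q 0).1 + (q 0).2)
    · rw [if_pos h5, if_pos (Int.even_iff.1 h5)]
    · rw [if_neg h5, if_neg (fun h' => h5 (Int.even_iff.2 h'))]
  have h1 : ep q l = if ((q l).1 + (q l).2) % 2 = 0 then 1 else -1 := by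
    unfold ep
    by_cases h5 : Even ((q l).1 + (q l).2)
    · rw [if_pos h5, if_pos (Int.even_iff.1 h5)]
    · rw [if_neg h5, if_neg (fun h' => h5 (Int.even_iff.2 h'))]
  rcases sgm_cases hq l with ⟨h2, h3⟩ | ⟨h2, h3⟩
  · rw [h2, if_pos]
    rw [h0, h1] at h3
    split_ifs at h3 <;> omega
  · rw [h2, if_neg, h0]
    rw [h0, h1] at h3
    split_ifs at h3 <;> omega

/-- **The change of the base with the explicit power** `sgm q l` (see `sgm_par`): `0` if the sites `q 0`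
and `q l` have the same parity, else `1` if `q 0` is even and `- 1` if `q 0` is odd. -/
theorem xg_base (h0 : 0 < θ) (h1 : θ < Real.pi / 2) (hq : IsPolygon q) (hD : Encloses q D)
    (hl : l < n) (h : ∀ i : ZMod n, q' i = q (i + l)) (hF : ∀ z, F z ≠ 0 → z ∈ sites D)
    (hs : ∑ᶠ z, F z = θ) (ω : Cfg) :
    XG θ q D n (fun z => F z + dlt (q l) (-θ) z) ω =
      (2 * Real.cos θ) ^ sgm q l * XG θ q' D n (fun z => F z + dlt (q 0) (-θ) z) ω := by
  have hc : 0 < Real.cos θ := Real.cos_pos_of_mem_Ioo ⟨by linarith, h1⟩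
  have h2c : (2 * Real.cos θ) ≠ 0 := by positivity
  unfold XG QX.XB
  rw [prod_congr rfl fun A hA => wB_rot hq hD h hl h0 h1 hA hF hs, prod_mul_distrib]
  congr 1
  rw [zprod h2c]
  congr 1
  rw [← sum_alt hq hD ω hl.le, sum_filter]

/-- The explicit power for an even site `q l`. -/
theorem xg_base_even (h0 : 0 < θ) (h1 : θ < Real.pi / 2) (hq : IsPolygon q) (hD : Encloses q D)
    (hl : l < n) (h : ∀ i : ZMod n, q' i = q (i + l)) (hF : ∀ z, F z ≠ 0 → z ∈ sites D)
    (hs : ∑ᶠ z, F z = θ) (he : ((q l).1 + (q l).2) % 2 = 0) (ω : Cfg) :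
    XG θ q D n (fun z => F z + dlt (q l) (-θ) z) ω =
      (if ((q 0).1 + (q 0).2) % 2 = 0 then 1 else (2 * Real.cos θ)⁻¹) *
        XG θ q' D n (fun z => F z + dlt (q 0) (-θ) z) ω := by
  rw [xg_base h0 h1 hq hD hl h hF hs, sgm_par hq l]
  congr 1
  split_ifs with h2 h3 h3
  · simp
  · omega
  · omega
  · rw [zpow_neg_one]

end Vale.Agent.P167.H174.ND
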