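import Vale.Agent.P167.H562.Q.MQ3
import Vale.Agent.P167.H945.Nrm

/-!
# P167, general `q`: the mean number of the small loops at two comparable cut-offs

`nb_comp`: `NbP P d' ≤ NbP P d + C` for `d ≤ d' ≤ Λ d`.
-/

namespace Vale.Agent.P167.H174.ND

open Finset Filter Topology MeasureTheory Vale.Agent.P167 Vale.Agent.P167.FK
open Vale.Agent.P167.FKA (Loc Ind)
open Vale.Agent.P167.H519 (IsLim exists_Bq)
open Vale.Agent.P167.H166 (bxx mem_bxx)
open Vale.Agent.P167.H135 (Cn CS near_ins exists_ball)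
open Vale.Agent.P167.H562.GL (loc_integrable)
open Vale.Agent.P167.H562.QM

variable {Q : ℝ} {P : Measure Cfg}

theorem small_mono' {d d' : ℝ} (h : d ≤ d') {A : Finset Ed} (hs : Small d A) : Small d' A :=
  fun u hu v hv => (hs u hu v hv).trans_le h

/-- Comparison of the numbers of the small loops around a site. -/
theorem Cn_le_add {d d' : ℝ} {z : ℤ × ℤ} {A : Finset (ℤ × ℤ)}
    (hA : ∀ v : ℤ × ℤ, (nm (v - z) : ℝ) < d' → v ∈ A) {ω : Cfg} {N : ℕ} (hN : MajA A d ω N)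
    (hfin : (CS d z ω).Finite) : Cn d' z ω ≤ Cn d z ω + N := by
  classical
  -- the loops of intermediate size
  have key : ∀ 𝓕 : Finset (Finset Ed), (↑𝓕 : Set (Finset Ed)) ⊆ CS d' z ω \ CS d z ω →
      𝓕.card ≤ N := by
    intro 𝓕 h𝓕
    have h1 : ∀ γ ∈ 𝓕, IsLoop ω γ ∧ Small d' γ ∧ z ∈ ins γ ∧ ¬ Small d γ := by
      intro γ hγ
      obtain ⟨⟨h1, h2, h3⟩, h4⟩ := h𝓕 (Finset.mem_coe.2 hγ)
      exact ⟨h1, h2, h3, fun h5 => h4 ⟨h1, h5, h3⟩⟩
    refine hN 𝓕 (fun γ hγ => H945.isSeg_of_loop (h1 γ hγ).1) (fun γ hγ γ' hγ' hne => ?_)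
      fun γ hγ => ?_
    · rw [Finset.disjoint_left]
      intro e he he'
      exact hne (IsLoop.eq_of_mem (h1 γ hγ).1 (h1 γ' hγ').1 he he')
    · obtain ⟨h2, h3, h4, h5⟩ := h1 γ hγ
      obtain ⟨e0, he0⟩ := H45.vs_nonempty h2
      constructor
      · obtain ⟨e, he, h6⟩ := Finset.mem_image.1 (show e0 ∈ γ.image hdv from he0)
        exact ⟨e, he, h6 ▸ hA _ (near_ins h2 h3 h4 he0)⟩
      · unfold Small at h5
        push Not at h5
        obtain ⟨u, hu, v, hv, h6⟩ := h5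
        obtain ⟨e, he, rfl⟩ := Finset.mem_image.1 (show u ∈ γ.image hdv from hu)
        obtain ⟨e', he', rfl⟩ := Finset.mem_image.1 (show v ∈ γ.image hdv from hv)
        exact ⟨e, he, e', he', h6⟩
  have hfin2 : (CS d' z ω \ CS d z ω).Finite := by
    by_contra hinf
    obtain ⟨𝓕, h1, h2⟩ := (show (CS d' z ω \ CS d z ω).Infinite from hinf).exists_subset_card_eq
      (N + 1)
    have := key 𝓕 h1
    omega
  have h2 : (CS d' z ω \ CS d z ω).ncard ≤ N := by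
    rw [Set.ncard_eq_toFinset_card _ hfin2]
    exact key _ (by simp)
  have h3 : CS d' z ω ⊆ CS d z ω ∪ (CS d' z ω \ CS d z ω) := by
    intro x hx
    by_cases h : x ∈ CS d z ω
    · exact Or.inl h
    · exact Or.inr ⟨hx, h⟩
  have h4 : (CS d' z ω).ncard ≤ (CS d z ω).ncard + (CS d' z ω \ CS d z ω).ncard :=
    (Set.ncard_le_ncard h3 (hfin.union hfin2)).trans (Set.ncard_union_le _ _)
  unfold Cn
  exact_mod_cast h4.trans (by omega)

/-- **Two comparable cut-offs.** -/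
theorem nb_comp (hQ : 1 ≤ Q) (h : RSW Q) (hP : IsLim Q P) {Λ : ℝ} (hΛ : 1 ≤ Λ) :
    ∃ C d0 : ℝ, 0 ≤ C ∧ 0 < d0 ∧ ∀ d d' : ℝ, d0 ≤ d → d ≤ d' → d' ≤ Λ * d →
      NbP P d' ≤ NbP P d + C := by
  classical
  have hQ0 : 0 < Q := by linarith
  have hPp : IsProbabilityMeasure P := hP.1
  obtain ⟨ε, C, ρ0, hε, hC, hρ0, hmac⟩ := macro_B hQ h 1 Λ 1 0 one_pos (by linarith)
  refine ⟨C, ρ0, hC.le, hρ0, fun d d' hd hdd hd' => ?_⟩
  obtain ⟨A, hA⟩ := exists_ball (0 : ℤ × ℤ) d'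
  obtain ⟨N, hN1, hN2, hN3⟩ := hmac d hd 0 A (fun v hv => ((hA v).1 hv).le.trans hd')
    (fun i => i.elim0)
  rw [one_mul] at hN1 hN2 hN3
  -- `N` is local
  obtain ⟨B, hB⟩ := exists_ball (0 : ℤ × ℤ) (d' + d + 1)
  have hNr : ∀ v, Nr A d v → v ∈ B := by
    rintro v ⟨u, hu, h1⟩
    rw [hB]
    have h2 := (hA u).1 hu
    have h3 : nm (v - 0) ≤ nm (v - u) + nm (u - 0) := by
      have := H562.MAJ.nm_tri v u 0
      exact this
    have h4 : (nm (v - 0) : ℝ) ≤ nm (v - u) + nm (u - 0) := by exact_mod_cast h3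
    linarith
  have hLoc : Loc B (fun ω => (N ω : ℝ)) := by
    intro ω ω' hw
    have : N ω = N ω' := hN1 ω ω' fun v hv _ => hw v (hNr v hv)
    simp only [this]
  have hbd : ∫ ω, (N ω : ℝ) ∂P ≤ C := by
    refine le_of_forall_pos_le_add fun e he => ?_
    obtain ⟨R, hR⟩ := hP.2 B _ hLoc e he
    obtain ⟨R', -, hR'⟩ := exists_Bq B
    set D := Bq 0 (max R R') with hD
    have hBD : B ⊆ D := hR'.trans (H519.Bq_mono (le_max_right _ _))
    have h1 := hR D eta0 (H519.Bq_mono (le_max_left _ _)) f_good.2.1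
    have h2 := hN3 D eta0 f_good.2.1 (fun y a _ h3 => oneC_sub fun v hv => hBD (hNr v (h3 v hv)))
      (fun _ => 1) (fun _ => zero_le_one) (fun _ _ _ => rfl)
    rw [FKA.Ex_const hQ0, mul_one] at h2
    have h3 : Ex Q D eta0 (fun ω => (N ω : ℝ)) ≤
        Ex Q D eta0 (fun ω => 1 * Real.exp (1 * (N ω : ℝ))) := by
      refine FKA.Ex_mono hQ0 fun S _ => ?_
      rw [one_mul, one_mul]
      have := Real.add_one_le_exp (N (cf D eta0 S) : ℝ)
      linarith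
    have h4 := (abs_le.1 h1).1
    linarith
  -- the difference
  obtain ⟨A1, hA1⟩ := Cn_Loc d (0 : ℤ × ℤ)
  obtain ⟨A2, hA2⟩ := Cn_Loc d' (0 : ℤ × ℤ)
  have hle : ∫ ω, Cn d' 0 ω ∂P ≤ ∫ ω, (Cn d 0 ω + (N ω : ℝ)) ∂P := by
    refine integral_mono (loc_integrable hA2) ((loc_integrable hA1).add (loc_integrable hLoc))
      fun ω => ?_
    refine Cn_le_add (fun v hv => (hA v).2 hv) (hN2 ω) ?_
    obtain ⟨A', hA'⟩ := exists_ball (0 : ℤ × ℤ) d
    rw [H135.CS_sub (A := A') (fun v hv => (hA' v).2 hv)]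
    exact Set.Finite.subset (Finset.finite_toSet (Vale.Agent.P167.H562.SML.smf A' d ω)) fun ℓ hℓ => hℓ.1
  rw [integral_add (loc_integrable hA1) (loc_integrable hLoc)] at hle
  unfold NbP
  linarith

/-- The mean number increases with the cut-off. -/
theorem NbP_mono (hP : IsProbabilityMeasure P) {d d' : ℝ} (h : d ≤ d') : NbP P d ≤ NbP P d' := by
  obtain ⟨A1, hA1⟩ := Cn_Loc d (0 : ℤ × ℤ)
  obtain ⟨A2, hA2⟩ := Cn_Loc d' (0 : ℤ × ℤ)
  refine integral_mono (loc_integrable hA1) (loc_integrable hA2) fun ω => ?_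
  obtain ⟨A', hA'⟩ := exists_ball (0 : ℤ × ℤ) d'
  have hfin : (CS d' 0 ω).Finite := by
    rw [H135.CS_sub (A := A') (fun v hv => (hA' v).2 hv)]
    exact Set.Finite.subset (Finset.finite_toSet (Vale.Agent.P167.H562.SML.smf A' d' ω))
      fun ℓ hℓ => hℓ.1
  have h1 : CS d 0 ω ⊆ CS d' 0 ω := fun γ hγ => ⟨hγ.1, small_mono' h hγ.2.1, hγ.2.2⟩
  show ((CS d 0 ω).ncard : ℝ) ≤ (CS d' 0 ω).ncard
  exact_mod_cast Set.ncard_le_ncard h1 hfin

end Vale.Agent.P167.H174.ND
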